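import Vale.Agent.Lib.P040.SphArc
import Vale.Agent.Lib.P040.SphPert

/-!
Zarankiewicz's conjecture for geodesic drawings of complete bipartite graphs on the sphere.

Place `m` points `a i` and `n` points `b j` on the unit sphere of three-space, anywhere, such that
no `a i` is antipodal to a `b j`.  Join each `a i` to each `b j` by the shortest geodesic arc, that
is, by the set `sphArc (a i) (b j)` of all unit vectors of the form `s • a i + t • b j` with
`s, t ≥ 0`.  A crossing of this drawing of `K_{m,n}` is a pair of edges without common endpoint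
whose arcs meet; such a pair is described uniquely by `(i, k, j, l)` with `i < k`, `j ≠ l`: the
edges are `a i - b j` and `a k - b l`.  The theorem says that there are at least
`⌊m/2⌋ ⌊(m-1)/2⌋ ⌊n/2⌋ ⌊(n-1)/2⌋` of them.
-/

namespace Vale.Agent.Results.P040.Spherical

open Vale.Agent.Lib.P040 in
theorem result (m n : ℕ) (a : Fin m → EuclideanSpace ℝ (Fin 3))
    (b : Fin n → EuclideanSpace ℝ (Fin 3)) (ha : ∀ i, ‖a i‖ = 1) (hb : ∀ j, ‖b j‖ = 1)
    (hanti : ∀ i j, a i ≠ - b j) :
    (m / 2) * ((m - 1) / 2) * ((n / 2) * ((n - 1) / 2)) ≤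
      Set.ncard {q : Fin m × Fin m × Fin n × Fin n |
        q.1 < q.2.1 ∧ q.2.2.1 ≠ q.2.2.2 ∧
          (sphArc (a q.1) (b q.2.2.1) ∩ sphArc (a q.2.1) (b q.2.2.2)).Nonempty} :=
  sph_main a b ha hb hanti

end Vale.Agent.Results.P040.Spherical
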