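import Vale.Agent.Results.P040.Rectilinear
import Vale.Agent.Results.P040.Spherical

open Vale.Agent.Lib.P040

namespace Vale.Agent.Results.P040.A0Conj

/-- Zarankiewicz lower bound for straight-line drawings and for geodesic drawings on the sphere of the complete bipartite graph. -/
theorem result :
    (∀ (m n : ℕ) (a : Fin m → ℝ × ℝ) (b : Fin n → ℝ × ℝ),
      (m / 2) * ((m - 1) / 2) * ((n / 2) * ((n - 1) / 2)) ≤
      Set.ncard {q : Fin m × Fin m × Fin n × Fin n |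
        q.1 < q.2.1 ∧ q.2.2.1 ≠ q.2.2.2 ∧
          (segment ℝ (a q.1) (b q.2.2.1) ∩ segment ℝ (a q.2.1) (b q.2.2.2)).Nonempty}) ∧
    (∀ (m n : ℕ) (a : Fin m → EuclideanSpace ℝ (Fin 3))
    (b : Fin n → EuclideanSpace ℝ (Fin 3)) (ha : ∀ i, ‖a i‖ = 1) (hb : ∀ j, ‖b j‖ = 1)
    (hanti : ∀ i j, a i ≠ - b j),
      (m / 2) * ((m - 1) / 2) * ((n / 2) * ((n - 1) / 2)) ≤
      Set.ncard {q : Fin m × Fin m × Fin n × Fin n |
        q.1 < q.2.1 ∧ q.2.2.1 ≠ q.2.2.2 ∧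
          (sphArc (a q.1) (b q.2.2.1) ∩ sphArc (a q.2.1) (b q.2.2.2)).Nonempty}) :=
  ⟨@Vale.Agent.Results.P040.Rectilinear.result, @Vale.Agent.Results.P040.Spherical.result⟩

end Vale.Agent.Results.P040.A0Conj
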