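import Vale.Agent.Lib.P040.Crossing

/-!
Zarankiewicz's conjecture for straight-line drawings of complete bipartite graphs.

Place `m` points `a i` and `n` points `b j` in the plane, anywhere.  Join each `a i` to each `b j`
by a straight segment.  A crossing of this drawing of `K_{m,n}` is a pair of edges without common
endpoint whose segments meet; such a pair is described uniquely by `(i, k, j, l)` with `i < k`,
`j ≠ l`: the edges are `a i - b j` and `a k - b l`.  The theorem says that there are at least
`⌊m/2⌋ ⌊(m-1)/2⌋ ⌊n/2⌋ ⌊(n-1)/2⌋` of them.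
-/

namespace Vale.Agent.Results.P040.Rectilinear

theorem result (m n : ℕ) (a : Fin m → ℝ × ℝ) (b : Fin n → ℝ × ℝ) :
    (m / 2) * ((m - 1) / 2) * ((n / 2) * ((n - 1) / 2)) ≤
      Set.ncard {q : Fin m × Fin m × Fin n × Fin n |
        q.1 < q.2.1 ∧ q.2.2.1 ≠ q.2.2.2 ∧
          (segment ℝ (a q.1) (b q.2.2.1) ∩ segment ℝ (a q.2.1) (b q.2.2.2)).Nonempty} :=
  Vale.Agent.Lib.P040.main_bound a b

end Vale.Agent.Results.P040.Rectilinear
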